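import Vale.Agent.P200.Betti.Main
import Vale.Agent.P200.Tern.Betti

/-!
P200: the Eisenbud-Green-Harris conjecture, in lex-plus-powers form, for every ideal in three
variables containing a regular sequence, and more generally for regular sequences of `c ≤ n` forms
that split into linear factors over the algebraic closure, except a base (three forms of any degrees,
or five quadrics) followed by any number of forms whose degree is at least the total socle degree of
the exceptional forms before them; with it the bounds on the minimal generators and on the socle,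
the first and last rows of the Betti table, and for three variables the middle row as well.
-/

namespace Vale.Agent.Results.P200.SplitFormsRegularSequence

open MvPolynomial Module

/-- The lex-plus-powers set of `I` (the multiples of `x_i ^ a_i` and the lex greatest monomials
outside them, `dim I_d` monomials in degree `d`) is closed under multiplication by the variables; it
has at least as many minimal generators as `I` and at least as large a socle, in each degree. -/
theorem result : ∀ (K : Type) [Field K] (n c : ℕ) (hc : c ≤ n) (I : Ideal (MvPolynomial (Fin n) K)),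
    (∀ p ∈ I, ∀ d, homogeneousComponent d p ∈ I) →
    ∀ a : Fin c → ℕ, (∀ i, 1 ≤ a i) → Monotone a →
    ∀ q : Fin c → MvPolynomial (Fin n) K, (∀ i, q i ∈ I) → (∀ i, (q i).IsHomogeneous (a i)) →
    (∀ i, ∀ p, q i * p ∈ Ideal.span (q '' {k | k < i}) → p ∈ Ideal.span (q '' {k | k < i})) →
    (∃ (E : Finset (Fin c)) (m : ℕ),
      ((E.filter fun i : Fin c => (i : ℕ) < m).card ≤ 3 ∨
        ((E.filter fun i : Fin c => (i : ℕ) < m).card ≤ 5 ∧
          ∀ i ∈ E.filter (fun i : Fin c => (i : ℕ) < m), a i = 2)) ∧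
      (∀ i ∈ E, m ≤ (i : ℕ) → (∑ j ∈ E.filter (fun j => j < i), (a j - 1)) ≤ a i) ∧
      ∀ i, i ∉ E →
      ∃ L : Fin (a i) → MvPolynomial (Fin n) (AlgebraicClosure K), (∀ k, (L k).IsHomogeneous 1) ∧
        MvPolynomial.map (algebraMap K (AlgebraicClosure K)) (q i) = ∏ k, L k) →
    ∃ M : Set (Fin n → ℕ),
      (∀ x, (∃ i, a i ≤ x (Fin.castLE hc i)) → x ∈ M) ∧
      (∀ x ∈ M, ∀ i, x + Pi.single i 1 ∈ M) ∧
      (∀ x ∈ M, ∀ y, (∀ i, x (Fin.castLE hc i) < a i) → (∀ i, y (Fin.castLE hc i) < a i) →
        ∑ i, x i = ∑ i, y i → toLex x < toLex y → y ∈ M) ∧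
      (∀ d : ℕ, {x | x ∈ M ∧ ∑ i, x i = d}.ncard
        = finrank K ↥(I.restrictScalars K ⊓ homogeneousSubmodule (Fin n) K d)) ∧
      (∀ d : ℕ, finrank K ↥(I.restrictScalars K ⊓ homogeneousSubmodule (Fin n) K (d + 1)) ≤
        {x | x ∈ M ∧ ∑ i, x i = d + 1 ∧ ∀ i, ∀ y ∈ M, y + Pi.single i 1 ≠ x}.ncard
          + finrank K ↥(Submodule.span K {r | ∃ i, ∃ p ∈ I.restrictScalars K ⊓
              homogeneousSubmodule (Fin n) K d, r = (X i : MvPolynomial (Fin n) K) * p})) ∧
      (∀ d : ℕ, finrank K ↥(Submodule.span K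
          {p : MvPolynomial (Fin n) K | p.IsHomogeneous d ∧ ∀ i, X i * p ∈ I})
        ≤ {x : Fin n → ℕ | ∑ i, x i = d ∧ ∀ i, x + Pi.single i 1 ∈ M}.ncard) ∧
      (n = 3 → ∀ e, Vale.Agent.P200.Tern.koszulTwo I e ≤
        Vale.Agent.P200.Tern.koszulTwo (Vale.Agent.P200.Tern.monIdeal K M) e) := by
  intro K _ n c hc I hI a ha hmono q hq hd hreg hE
  obtain ⟨E, m, hE, hgrow, hEs⟩ := hE
  obtain ⟨M, h1, h2, h3, h4, h5, h6⟩ :=
    Vale.Agent.P200.Betti.lpp_betti hc hI ha hmono hq hd hreg ⟨m, hE, hgrow⟩ hEs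
  refine ⟨M, h1, h2, h3, h4, h5, h6, ?_⟩
  rintro rfl
  refine Vale.Agent.P200.Tern.koszulTwo_le hI h2 h4 h5 fun d => le_trans (le_of_eq ?_) (h6 d)
  exact congrArg (fun S : Submodule K (MvPolynomial (Fin 3) K) => finrank K S)
    (Submodule.span_eq (Vale.Agent.P200.Betti.socle I d)).symm

end Vale.Agent.Results.P200.SplitFormsRegularSequence
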